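import Vale.Agent.P280A30.Defs

/-!
# P280: line bundles, degrees on curves and the Picard number, algebraically
-/

open Vale.Agent.P299G40
open Vale.Agent.P009.AV (IsZar)

namespace Vale.Agent.P280A

variable {N K : ℕ}

/-- An algebraic line bundle on `Z`: a cover by Zariski open subsets `U i` and a cocycle of
regular functions `g i j` without zeros on the intersections. -/
structure LB (Z : Set (PN N)) where
  ι : Type
  U : ι → Set (PN N)
  g : ι → ι → PN N → ℂ
  isOpen : ∀ i, ∃ W, IsZar W ∧ U i = Z \ W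
  cover : ∀ z ∈ Z, ∃ i, z ∈ U i
  regular : ∀ i j, RegularOn (U i ∩ U j) (g i j)
  ne_zero : ∀ i j, ∀ z ∈ U i ∩ U j, g i j z ≠ 0
  cocycle : ∀ i j k, ∀ z ∈ U i ∩ U j ∩ U k, g i j z * g j k z = g i k z

/-- `f^* L` has degree `k` on the curve `C`: a rational section `s` of `f^* L` (with the coefficient
`s i` over `U i`) has orders `m` with sum `k`. -/
def HasDeg {Z : Set (PN N)} (L : LB Z) (C : Set (PN K)) (f : PN K → PN N) (k : ℤ) : Prop :=
  ∃ (s : L.ι → PN K → ℂ) (m : PN K →₀ ℤ),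
    (∀ i j, ∀ y ∈ C, f y ∈ L.U i → f y ∈ L.U j → s i y = L.g i j (f y) * s j y) ∧
    (∀ c ∈ C, ∃ i, f c ∈ L.U i ∧ HasOrd C c (s i) (m c)) ∧
    (m.support : Set (PN K)) ⊆ C ∧ k = m.sum fun _ a => a

/-- The Picard number of `Z` is at least `r`: there are `r` line bundles such that no nonzero
integral combination is numerically trivial, it has a nonzero degree on some smooth projective
curve `C` mapped to `Z` by a morphism `f`. -/
def PicardGe (Z : Set (PN N)) (r : ℕ) : Prop :=
  ∃ L : Fin r → LB Z, ∀ z : Fin r → ℤ, z ≠ 0 →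
    ∃ (K : ℕ) (C : Set (PN K)) (f : PN K → PN N) (k : Fin r → ℤ), IsSmoothVariety 1 C ∧
      IsMor C f ∧ Set.MapsTo f C Z ∧ (∀ a, HasDeg (L a) C f (k a)) ∧ ∑ a, z a * k a ≠ 0

end Vale.Agent.P280A
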