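import Vale.Agent.P280B30.Rho
import Vale.Agent.P280X.Fin1

/-!
# P280B30: assembly
-/

open scoped Manifold ContDiff
open Vale.Agent.P272.K Vale.Agent.P280Z Vale.Agent.P299G40

namespace Vale.Agent.P280A

theorem fin2 (map : MAP) (var : VAR) (emb : EMB) (deg : DEG) (mer : MER) (cov : COV) (fano : FANO)
    (iso : ISO) (lbh : LBH) (lift : LIFT) (rem : REM) (deq : DEQ) (n N : ℕ) (Z : Set (PN N))
    (h : n ≤ 6 ∨ PicardGe Z (n - 5)) (hF : IsFano n Z) (hN : IsNefTangent n Z) : IsRatHom Z := by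
  obtain ⟨X, _, _, _, _, _, Φ, hΦ⟩ := P299G85.exi n N Z hF.1
  have := P299G50.conn n N Z X Φ hF.1.irr hΦ
  exact iso n N Z X Φ hΦ (P280W.rho_of P280X.nop1 (P281Z.Mf.mk X) (fano n N Z X Φ hF hΦ)
    (Nef.nef map var emb deg mer cov hF.1 hΦ hN) (h.imp_right (Pic.rho lbh lift rem deq hF.1 hΦ)))

end Vale.Agent.P280A
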