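import Vale.Agent.P280B30.Rows
import Vale.Agent.P280A30.Nef
import Vale.Agent.P280W.Defs2
import Vale.Agent.P281Z.Sc.Bd
import Vale.Agent.P299G85.Exi
import Vale.Agent.P299G50.Conn

/-!
# P280B30: the algebraic Picard number bounds the analytic one
-/

set_option linter.all false

open scoped Manifold ContDiff Topology
open Filter
open Vale.Agent.P272.K Vale.Agent.P285.H281.FD Vale.Agent.P300.Final Vale.Agent.P299G40
open Vale.Agent.P280W (Rho cmb)

noncomputable section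

namespace Vale.Agent.P280A.Pic

section
variable {S : Type} [TopologicalSpace S] [ChartedSpace (Cm 1) S] {h : S → ℂ} {p : S} {m : ℤ}

theorem ord_zpow (H : OrdAt h p m) (k : ℤ) : OrdAt (fun x => h x ^ k) p (k * m) := by
  obtain ⟨u, a, b, c⟩ := H
  refine ⟨fun x => u x ^ k, a.zpow (by rwa [(chartAt (Cm 1) p).left_inv (mem_chart_source _ p)]),
    zpow_ne_zero _ b, ?_⟩
  filter_upwards [c] with x h1
  rw [h1, mul_zpow, ← zpow_mul, mul_comm m k]

theorem ord_prod {ι : Type} (t : Finset ι) (h : ι → S → ℂ) (m : ι → ℤ)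
    (H : ∀ a, OrdAt (h a) p (m a)) : OrdAt (fun x => ∏ a ∈ t, h a x) p (∑ a ∈ t, m a) := by
  classical
  induction t using Finset.induction_on with
  | empty => exact ⟨fun _ => 1, analyticAt_const, one_ne_zero, Eventually.of_forall fun x => by simp⟩
  | insert a t ha ih =>
    simp only [Finset.prod_insert ha, Finset.sum_insert ha]
    exact Nef.ord_mul (H a) ih

end

theorem rho (lbh : LBH) (lift : LIFT) (rem : REM) (deq : DEQ) {n N r : ℕ}
    {Z : Set (PN N)} {X : Type} [TopologicalSpace X] [T2Space X] [CompactSpace X]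
    [ChartedSpace (Cm n) X] [IsManifold 𝓘(ℂ, Cm n) ω X] {Φ : X → PN N}
    (hZ : IsSmoothVariety n Z) (hΦ : IsAnalytification n Z Φ) (h : PicardGe Z r) : Rho n X r := by
  classical
  obtain ⟨L, h⟩ := h
  refine ⟨fun a => (L a).an Φ, fun a => lbh n N Z X Φ hΦ (L a), fun z hz => ?_⟩
  obtain ⟨K, C, f, k, hC, hf, hm, hd, hs⟩ := h z hz
  obtain ⟨S, _, _, _, _, _, Θ, hΘ⟩ := P299G85.exi 1 K C hC
  have hc := P299G50.conn 1 K C S Θ hC.irr hΘ
  obtain ⟨φ, h1, h2⟩ := lift n N K Z X Φ C S Θ f hZ hΦ hΘ hf hm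
  choose s m e1 e2 e3 e4 using hd
  have mem : ∀ c, Θ c ∈ C := fun c => hΘ.2.2 ▸ Set.mem_range_self c
  refine ⟨P281Z.Mf.mk S, φ, hc, h1, deq S (cmb φ (fun a => (L a).an Φ) z)
    (fun i c => ∏ a, s a (i a) (Θ c) ^ z a) (fun p => ∑ a, z a * m a (Θ p))
    (P281Z.HolM.lb (n := 1) (p := n) h1
      (P281Z.lb_lin (fun a => lbh n N Z X Φ hΦ (L a)) z)) ?_ ?_ ?_⟩
  · intro i j x hi hj
    change ∏ a, s a (i a) (Θ x) ^ z a =
      (∏ a, (L a).g (i a) (j a) (Φ (φ x)) ^ z a) * ∏ a, s a (j a) (Θ x) ^ z a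
    rw [← Finset.prod_mul_distrib]
    refine Finset.prod_congr rfl fun a _ => ?_
    have a1 : Φ (φ x) ∈ (L a).U (i a) := hi a
    have a2 : Φ (φ x) ∈ (L a).U (j a) := hj a
    rw [h2] at a1 a2
    rw [← mul_zpow, h2, ← e1 a (i a) (j a) _ (mem x) a1 a2]
  · intro p
    choose i hi ho using fun a => e2 a _ (mem p)
    exact ⟨i, fun a => (show Φ (φ p) ∈ (L a).U (i a) from (h2 p).symm ▸ hi a),
      ord_prod _ _ _ fun a => ord_zpow (rem K C S Θ hC hΘ _ p _ (ho a)) _⟩
  · have fin : ∀ a, (Function.support fun p => m a (Θ p)).Finite := fun a =>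
      Set.Finite.preimage hΘ.1.injOn (m a).hasFiniteSupport
    have e : ∀ a, ∑ᶠ p, m a (Θ p) = k a := fun a => by
      rw [← finsum_mem_range hΘ.1, hΘ.2.2, e4 a]
      refine finsum_mem_eq_sum_of_inter_support_eq _ ?_
      rw [← Finsupp.fun_support_eq, Set.inter_self, Set.inter_eq_right]
      exact (m a).fun_support_eq ▸ e3 a
    rw [finsum_sum_comm _ (fun p a => z a * m a (Θ p))
      fun a _ => (fin a).subset fun p hp h0 => hp (by simp only [h0, mul_zero])]
    refine fun h0 => hs (h0 ▸ Finset.sum_congr rfl fun a _ => ?_)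
    rw [← e a, mul_finsum' _ _ (fin a)]

end Vale.Agent.P280A.Pic

end
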