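import Vale.Agent.P280B30.Defs
import Vale.Agent.P280A30.Rows

/-!
# P280B30: the rows for the Picard number
-/

open scoped Manifold ContDiff Topology
open Vale.Agent.P272.K Vale.Agent.P285.H281.FD Vale.Agent.P300.Final Vale.Agent.P299G40
open Vale.Agent.P281Z (Pos)

noncomputable section

namespace Vale.Agent.P280A

/-- The holomorphic line bundle of an algebraic one. -/
def LB.an {N : ℕ} {Z : Set (PN N)} (L : LB Z) {X : Type} (Φ : X → PN N) : Bd X where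
  ι := L.ι
  U i := Φ ⁻¹' L.U i
  g i j x := L.g i j (Φ x)

/-- Algebraic line bundles are holomorphic. -/
def LBH : Prop := ∀ (n N : ℕ) (Z : Set (PN N)) (X : Type) [TopologicalSpace X]
  [ChartedSpace (Cm n) X] [IsManifold 𝓘(ℂ, Cm n) ω X] (Φ : X → PN N),
  IsAnalytification n Z Φ → ∀ L : LB Z, IsLB n (L.an Φ)

/-- Morphisms are holomorphic. -/
def LIFT : Prop := ∀ (n N K : ℕ) (Z : Set (PN N)) (X : Type) [TopologicalSpace X] [T2Space X]
  [CompactSpace X] [ChartedSpace (Cm n) X] [IsManifold 𝓘(ℂ, Cm n) ω X] (Φ : X → PN N)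
  (C : Set (PN K)) (S : Type) [TopologicalSpace S] [T2Space S] [CompactSpace S]
  [ChartedSpace (Cm 1) S] [IsManifold 𝓘(ℂ, Cm 1) ω S] (Θ : S → PN K) (f : PN K → PN N),
  IsSmoothVariety n Z → IsAnalytification n Z Φ → IsAnalytification 1 C Θ → IsMor C f →
  Set.MapsTo f C Z →
    ∃ φ : S → X, ContMDiff 𝓘(ℂ, Cm 1) 𝓘(ℂ, Cm n) ω φ ∧ ∀ c, Φ (φ c) = f (Θ c)

/-- Rational functions are meromorphic, with the same orders. -/
def REM : Prop := ∀ (K : ℕ) (C : Set (PN K)) (S : Type) [TopologicalSpace S] [T2Space S]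
  [CompactSpace S] [ConnectedSpace S] [ChartedSpace (Cm 1) S] [IsManifold 𝓘(ℂ, Cm 1) ω S]
  (Θ : S → PN K), IsSmoothVariety 1 C → IsAnalytification 1 C Θ →
    ∀ (h : PN K → ℂ) p m, HasOrd C (Θ p) h m → OrdAt (fun x => h (Θ x)) p m

/-- A line bundle of nonzero degree is positive or negative. -/
def DEQ : Prop := ∀ (S : Type) [TopologicalSpace S] [T2Space S] [CompactSpace S]
  [ConnectedSpace S] [ChartedSpace (Cm 1) S] [IsManifold 𝓘(ℂ, Cm 1) ω S] (L : Bd S)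
  (s : L.ι → S → ℂ) (m : S → ℤ), IsLB 1 L →
    (∀ a b x, x ∈ L.U a → x ∈ L.U b → s a x = L.g a b x * s b x) →
    (∀ p, ∃ a, p ∈ L.U a ∧ OrdAt (s a) p (m p)) → ∑ᶠ p, m p ≠ 0 →
    Pos 1 L ∨ Pos 1 (P277.Bd.inv L)

end Vale.Agent.P280A

end
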